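import Vale.Agent.P195.Main

/-!
The Auslander-Reiten conjecture fails over every field of characteristic zero.
-/

namespace Vale.Agent.Results.P195.ARConjectureFalse

open CategoryTheory

/-- Over every field of characteristic zero there are a finite-dimensional algebra `A` and a
finitely generated left `A`-module `M` which is not projective although
`Ext^i(M, M) = 0` and `Ext^i(M, A) = 0` for every `i ≥ 1`. -/
theorem result : ∀ (K : Type) [Field K] [CharZero K],
    ∃ (A : Type) (_ : Ring A) (_ : Algebra K A), FiniteDimensional K A ∧
      ∃ M : ModuleCat.{0} A, Module.Finite A M ∧ ¬ Module.Projective A M ∧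
        ∀ i : ℕ, 1 ≤ i → Subsingleton (Abelian.Ext M M i) ∧
          Subsingleton (Abelian.Ext M (ModuleCat.of A A) i) := by
  intro K _ _
  exact Vale.Agent.P195.exists_ar_counterexample K

end Vale.Agent.Results.P195.ARConjectureFalse
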